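import Vale.Agent.P153.R2.POLY.Dom

/-!
# P153, block APPX: the exterior of a lattice polygon

The complement of the closed region enclosed by a lattice polygon is connected.
-/

set_option linter.all false

namespace Vale.Agent.P153.R2.APPX

open Vale.Agent.P153.R2.Final Vale.Agent.P153.R2.POLY Set Filter Topology

variable {n : ℕ} {p : ZMod n → ℤ × ℤ} {S : Finset Tri}

/-- **The complement of the closed region is connected.** -/
theorem isPreconnected_out (hp : IsPolygon p) (hS : Encloses p S) :
    IsPreconnected (DD ((S : Set Tri)ᶜ)) := by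
  obtain ⟨t0, ht0⟩ := exists_notMem S
  have hc0 : cen t0 ∈ DD ((S : Set Tri)ᶜ) := ot_sub_DD (T := (S : Set Tri)ᶜ) ht0 (cen_mem t0)
  set C := connectedComponentIn (DD ((S : Set Tri)ᶜ)) (cen t0) with hC
  set T : Set Tri := {t | t ∉ S ∧ cen t ∈ C} with hT
  have key := (two_sides_set hp hS (T := T) (by
    intro v k hk
    rw [side_dir hS] at hk
    have hk' : tb v k ∈ S ↔ ta v k ∈ S := by tauto
    by_cases hb : tb v k ∈ S
    · have ha := hk'.1 hb
      exact ⟨fun h => absurd hb h.1, fun h => absurd ha h.1⟩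
    · have ha : ta v k ∉ S := fun h => hb (hk'.2 h)
      obtain ⟨A, hA, hAS, h1, h2⟩ := preconn_two v k (T := (S : Set Tri)ᶜ) ha hb
      constructor
      · rintro ⟨_, h⟩
        exact ⟨ha, same_comp hA hAS h2 h1 h⟩
      · rintro ⟨_, h⟩
        exact ⟨hb, same_comp hA hAS h1 h2 h⟩)).2
  have h0 : t0 ∈ T := ⟨ht0, mem_connectedComponentIn hc0⟩
  have hall : DD ((S : Set Tri)ᶜ) ⊆ C := by
    intro z hz
    obtain ⟨t, ht⟩ := exists_ct z
    have htS : t ∉ S := hz t ht
    have h1 : cen t ∈ C := ((key t0 t ht0 htS).1 h0).2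
    refine same_comp (preconn_insert ht) ?_ (mem_insert_of_mem _ (cen_mem t)) (mem_insert _ _) h1
    rintro w (rfl | hw)
    · exact hz
    · exact ot_sub_DD (T := (S : Set Tri)ᶜ) htS hw
  have he : DD ((S : Set Tri)ᶜ) = C := Subset.antisymm hall (connectedComponentIn_subset _ _)
  rw [he]
  exact isPreconnected_connectedComponentIn

variable {δ : ℝ}

theorem compl_region (hδ : 0 < δ) (S : Finset Tri) :
    (toC '' region δ S)ᶜ = NN hδ ⁻¹' DD ((S : Set Tri)ᶜ) := by
  rw [region_eq hδ, DD_eq, compl_compl, preimage_compl]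

theorem isPreconnected_compl_region (hδ : 0 < δ) (hp : IsPolygon p) (hS : Encloses p S) :
    IsPreconnected (toC '' region δ S)ᶜ := by
  rw [compl_region hδ, (NN hδ).isPreconnected_preimage]
  exact isPreconnected_out hp hS

end Vale.Agent.P153.R2.APPX
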