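import Vale.Agent.P153.R2.APPX.Wind

/-!
# P153, block APPX: the last condition of `Approx` follows from the others

`approx_of`: if the marked boundary curves of the lattice polygons converge uniformly modulo
reparametrization to the marked Jordan curve and the mesh tends to `0`, then every compact subset of
the Jordan domain is eventually enclosed.
-/

set_option linter.all false

namespace Vale.Agent.P153.R2.APPX

open Vale.Agent.P153.R2.Final Vale.Agent.P153.R2.R1 Set Filter Topology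

/-- The marked boundary curves of the lattice polygons `p n` of mesh `δ n → 0` converge uniformly
modulo reparametrization to the marked Jordan curve (this is `Approx` without its last condition). -/
def Bdry (Φ : (ℝ × ℝ) ≃ₜ (ℝ × ℝ)) (δ : ℕ → ℝ) (N k : ℕ → ℕ)
    (p : ∀ n, ZMod (N n) → ℤ × ℤ) (S : ℕ → Finset Tri) : Prop :=
  (∀ n, 0 < δ n ∧ 0 < k n ∧ k n < N n ∧ IsPolygon (p n) ∧ Encloses (p n) (S n)) ∧
  Tendsto δ atTop (𝓝 0) ∧
  ∀ ε > 0, ∀ᶠ n in atTop, ∃ s : ℕ → ℝ, Monotone s ∧ s 0 = 0 ∧ s (k n) = Real.pi ∧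
    s (N n) = 2 * Real.pi ∧ ∀ i < N n, ∀ t ∈ Icc (s i) (s (i + 1)),
      dist (δ n • pt (p n i)) (Φ (circ t)) < ε

variable {Φ : (ℝ × ℝ) ≃ₜ (ℝ × ℝ)} {δ : ℕ → ℝ} {N k : ℕ → ℕ} {p : ∀ n, ZMod (N n) → ℤ × ℤ}
  {S : ℕ → Finset Tri}

/-- The boundary curves are uniformly close modulo reparametrization. -/
theorem bdry_close (h : Bdry Φ δ N k p S) {ε : ℝ} (hε : 0 < ε) :
    ∀ᶠ n in atTop, ∃ σ : ℝ → ℝ, Continuous σ ∧ (∀ x, σ (x + N n) = σ x + 2 * Real.pi) ∧
      ∀ x, dist (PF (p n) (δ n) x) (FC Φ (σ x)) ≤ ε := by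
  obtain ⟨h1, h2, h3⟩ := h
  have hδ : ∀ᶠ n in atTop, δ n < ε / 2 := h2.eventually (gt_mem_nhds (half_pos hε))
  filter_upwards [hδ, h3 (ε / 4) (by positivity)] with n hδn ⟨s, hs, s0, sk, sN, hsd⟩
  obtain ⟨hδ0, hk0, hkN, hp, -⟩ := h1 n
  have hN : 0 < N n := by omega
  have hmono := monotone_st hN hs s0 sN
  refine ⟨pl (st s (N n)), continuous_pl _, ?_, ?_⟩
  · intro x
    have := pl_add (st s (N n)) (st s (N n)) (N n) (2 * Real.pi) (st_add hN) x
    exact_mod_cast this
  · intro x
    set i := ⌊x⌋ with hi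
    have hσ := pl_mem_Icc hmono x
    rw [← hi] at hσ
    obtain ⟨e1, e2⟩ := st_step hN s0 sN i
    rw [e1, e2] at hσ
    set r := (i % (N n : ℤ)).toNat with hr
    set q := i / (N n : ℤ) with hq
    have hN0 : (0 : ℤ) < N n := by omega
    have hr0 : 0 ≤ i % (N n : ℤ) := Int.emod_nonneg i hN0.ne'
    have hr1 : i % (N n : ℤ) < N n := Int.emod_lt_of_pos i hN0
    have hrN : r < N n := by omega
    have hpi : p n (i : ZMod (N n)) = p n (r : ZMod (N n)) := by
      congr 1
      have e3 : (i : ZMod (N n)) = ((r : ℤ) : ZMod (N n)) := by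
        rw [ZMod.intCast_eq_intCast_iff_dvd_sub]
        refine ⟨-q, ?_⟩
        have e4 := Int.mul_ediv_add_emod i (N n)
        rw [← hq] at e4
        have e5 : (r : ℤ) = i % (N n) := by omega
        rw [e5]
        linarith
      rw [e3]
      push_cast
      rfl
    have hd := hsd r hrN (pl (st s (N n)) x - q * (2 * Real.pi))
      ⟨by linarith [hσ.1], by linarith [hσ.2]⟩
    have hF : FC Φ (pl (st s (N n)) x - q * (2 * Real.pi)) = FC Φ (pl (st s (N n)) x) := by
      have := per_int (jcurve_FC Φ).per (-q) (pl (st s (N n)) x)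
      push_cast at this
      rw [← this]
      congr 1
      ring
    have h5 := dist_toC_le (δ n • pt (p n r)) (Φ (circ (pl (st s (N n)) x - q * (2 * Real.pi))))
    have h6 : dist (PV (p n) (δ n) i) (FC Φ (pl (st s (N n)) x)) ≤ ε / 2 := by
      rw [← hF, PV, hpi]
      show dist (toC (δ n • pt (p n r))) (toC (Φ (circ _))) ≤ _
      linarith
    have h7 := dist_PF (p := p n) hδ0 hp x
    rw [← hi] at h7
    have h8 := dist_triangle (PF (p n) (δ n) x) (PV (p n) (δ n) i) (FC Φ (pl (st s (N n)) x))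
    linarith

/-- **The last condition of `Approx` follows from the others.** -/
theorem approx_of (h : Bdry Φ δ N k p S) : Approx Φ δ N k p S := by
  refine ⟨h.1, h.2.1, h.2.2, fun K hK hKc => ?_⟩
  rcases K.eq_empty_or_nonempty with rfl | hne
  · exact Eventually.of_forall fun n => empty_subset _
  have hKC : IsCompact (toC '' K) := hKc.image continuous_toC
  have hKD : toC '' K ⊆ DC Φ := image_mono hK
  have hΓ : IsCompact (range (FC Φ)) := by
    rw [← frontier_DC]
    exact (isBounded_DC Φ).isCompact_closure.of_isClosed_subset isClosed_frontier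
      frontier_subset_closure
  have hdisj : Disjoint (toC '' K) (range (FC Φ)) := by
    rw [← frontier_DC, (isOpen_DC Φ).frontier_eq]
    exact disjoint_left.2 fun x hx hx' => hx'.2 (hKD hx)
  obtain ⟨r, hr, hrd'⟩ := Metric.exists_pos_forall_lt_edist hKC hΓ.isClosed hdisj
  have hrd : ∀ x ∈ toC '' K, ∀ y ∈ range (FC Φ), (r : ℝ) < dist x y := fun x hx y hy => by
    have h1 := hrd' x hx y hy
    rw [edist_nndist, ENNReal.coe_lt_coe] at h1
    exact h1
  have hr2 : 0 < (r : ℝ) / 2 := by positivity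
  filter_upwards [bdry_close h hr2] with n ⟨σ, hσ, hσp, hd⟩
  obtain ⟨hδ0, hk0, hkN, hp, hS⟩ := h.1 n
  intro z hz
  have h1 := mem_region_of_close Φ hδ0 hp hS hσ hσp hd (hKD (mem_image_of_mem toC hz)) fun t => by
    have := hrd _ (mem_image_of_mem toC hz) _ (mem_range_self t)
    linarith
  obtain ⟨w, hw, he⟩ := h1
  rw [toC_injective he] at hw
  exact hw

theorem approx_iff : Approx Φ δ N k p S ↔ Bdry Φ δ N k p S :=
  ⟨fun h => ⟨h.1, h.2.1, h.2.2.1⟩, approx_of⟩

end Vale.Agent.P153.R2.APPX
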