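import Vale.Agent.P153.R2.APPX.Main

/-!
# P153, block APPX: the final statements for `Bdry` in place of `Approx`
-/

set_option linter.all false

namespace Vale.Agent.P153.R2.APPX

open Vale.Agent.P153.R2.Final Set Filter Topology MeasureTheory ProbabilityTheory

/-- The field theorem: for every marked Jordan domain and every sequence of lattice polygons whose
marked boundary curves converge to it, `h_δ` converges in law to `u + √κ Φ_D` (the random variables
`h_δ(φ)` converge in law for every test function `φ`, hence, by linearity, so do the vectors of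
finitely many of them), and the expectations converge. -/
def FieldLimit' (κ : ℝ) : Prop :=
  ∀ Φ : (ℝ × ℝ) ≃ₜ (ℝ × ℝ), ∃ u, IsHarm Φ u ∧
    (∀ u', IsHarm Φ u' → ∀ z ∈ dom Φ, u' z = u z) ∧
    ∀ (δ : ℕ → ℝ) (N k : ℕ → ℕ) (p : ∀ n, ZMod (N n) → ℤ × ℤ) (S : ℕ → Finset Tri),
      Bdry Φ δ N k p S → ∃ hL : ∀ n, Prob (law (p n) (k n) (S n)),
        ∀ φ, TestOn (dom Φ) φ →
          Tendsto (fun n => mean (law (p n) (k n) (S n)) (fld (S n) (δ n) φ)) atTop
            (𝓝 (∫ z, u z * φ z)) ∧
          ToGauss atTop (fun n => law (p n) (k n) (S n)) hL (fun n => fld (S n) (δ n) φ)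
            (∫ z, u z * φ z) (κ * V (dom Φ) φ)

theorem fieldLimit' {κ : ℝ} (h : FieldLimit κ) : FieldLimit' κ := by
  intro Φ
  obtain ⟨u, hu, h1, h2⟩ := h Φ
  exact ⟨u, hu, h1, fun δ N k p S hA => h2 δ N k p S (approx_of hA)⟩

/-- The curve theorem: there is a chordal `SLE_4` trace `γ` in the upper half-plane, from `0` to
`∞`, such that for every marked Jordan domain `(D; a, b)`, every conformal map `ψ` from the upper
half-plane onto `(D; a, b)` and every sequence of lattice polygons whose marked boundary curves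
converge to the marked boundary curve of `(D; a, b)` the interfaces converge in law
to the chordal `SLE_4` curve `ψ ∘ γ` of `(D; a, b)`, in the uniform metric modulo increasing
reparametrization: the expectations of all bounded continuous functions `F` of the curve which are
invariant under increasing reparametrization converge. -/
def CurveLimit' : Prop :=
  ∃ (Ω : Type) (_ : MeasurableSpace Ω) (P : Measure Ω) (_ : IsProbabilityMeasure P)
    (γ : Ω → ℝ → ℂ), IsSLETrace 4 P γ ∧
    ∀ Φ : (ℝ × ℝ) ≃ₜ (ℝ × ℝ), (∃ ψ, IsUniformizer Φ ψ) ∧ ∀ ψ, IsUniformizer Φ ψ →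
      ∃ G : Ω → C(unitInterval, ℂ),
        (∀ᵐ ω ∂P, G ω 1 = toC (Φ (circ Real.pi)) ∧
          ∀ t : unitInterval, (t : ℝ) < 1 → G ω t = ψ (γ ω (t / (1 - t)))) ∧
        (∀ F : C(unitInterval, ℂ) → ℝ, Continuous F → AEMeasurable (fun ω => F (G ω)) P) ∧
        ∀ (δ : ℕ → ℝ) (N k : ℕ → ℕ) (p : ∀ n, ZMod (N n) → ℤ × ℤ) (S : ℕ → Finset Tri),
          Bdry Φ δ N k p S →
          (∀ n, ∀ h ∈ Heights (p n) (k n) (S n), ∃ c,
            IsInterface (p n) (k n) (S n) (δ n) h c) ∧
          ∀ c : ∀ n, (ℤ × ℤ → ℤ) → C(unitInterval, ℂ),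
            (∀ n, ∀ h ∈ Heights (p n) (k n) (S n),
              IsInterface (p n) (k n) (S n) (δ n) h (c n h)) →
            ∀ F : C(unitInterval, ℂ) → ℝ, Continuous F → (∃ M, ∀ x, |F x| ≤ M) →
              (∀ (x : C(unitInterval, ℂ)) (σ : C(unitInterval, unitInterval)), StrictMono σ →
                Function.Surjective σ → F (x.comp σ) = F x) →
              Tendsto (fun n => mean (law (p n) (k n) (S n)) fun h => F (c n h)) atTop
                (𝓝 (∫ ω, F (G ω) ∂P))

theorem curveLimit' (h : CurveLimit) : CurveLimit' := by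
  obtain ⟨Ω, mΩ, P, hP, γ, hγ, h⟩ := h
  refine ⟨Ω, mΩ, P, hP, γ, hγ, fun Φ => ⟨(h Φ).1, fun ψ hψ => ?_⟩⟩
  obtain ⟨G, h1, h2, h3⟩ := (h Φ).2 ψ hψ
  exact ⟨G, h1, h2, fun δ N k p S hA => h3 δ N k p S (approx_of hA)⟩

end Vale.Agent.P153.R2.APPX
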