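import Vale.Agent.P153.R2.APPX.Ext
import Vale.Agent.P153.R2.R1.Appr
import Vale.Agent.P153.R2.TOP.Sep

/-!
# P153, block APPX: a lattice polygon close to a Jordan curve encloses the points inside

`mem_region_of_close`: if the boundary curve of a lattice polygon is close (modulo
reparametrization) to the Jordan curve `Φ (circ t)`, then the polygon encloses all points of the
Jordan domain which are not close to the Jordan curve.
-/

set_option linter.all false

namespace Vale.Agent.P153.R2.APPX

open Vale.Agent.P153.R2.Final Vale.Agent.P153.R2.R1 Set Filter Topology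
open P153.TOP (LogOn)

variable (Φ : (ℝ × ℝ) ≃ₜ (ℝ × ℝ))

/-- `x - z` has no continuous logarithm on the Jordan curve around `z`. -/
theorem not_logOn {z : ℂ} (hz : z ∈ DC Φ) : ¬ LogOn (range (FC Φ)) (fun x => x - z) := by
  intro h
  have h1 : LogOn (range (FC Φ)) (fun x => (x - z) ^ (1 : ℤ) / (1 : ℂ)) :=
    h.congr fun x _ => by simp
  have hcl : IsClosed (range (FC Φ)) := by
    rw [← frontier_DC]; exact isClosed_frontier
  have := P153.TOP.eq_zero_of_extension hcl (isOpen_DC Φ) (isBounded_DC Φ) (frontier_DC Φ).subset hz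
    (g := fun _ => (1 : ℂ)) continuousOn_const (fun _ _ => one_ne_zero) h1
  exact one_ne_zero this

/-- A periodic continuous logarithm of the parametrized curve gives a continuous logarithm on the
curve. -/
theorem logOn_of_periodic {z : ℂ} {ℓ : ℝ → ℂ} (hc : Continuous ℓ)
    (hp : Function.Periodic ℓ (2 * Real.pi)) (he : ∀ t, Complex.exp (ℓ t) = FC Φ t - z) :
    LogOn (range (FC Φ)) (fun x => x - z) := by
  obtain ⟨g, hgc, hg⟩ : ∃ g : Real.Angle → ℂ, Continuous g ∧ ∀ t : ℝ, g (t : Real.Angle) = ℓ t :=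
    ⟨hp.lift, (QuotientAddGroup.isQuotientMap_mk
      (N := AddSubgroup.zmultiples (2 * Real.pi))).continuous_iff.2 hc, fun t => hp.lift_coe t⟩
  have hval : ∀ t : ℝ, g (Complex.arg ((homC Φ).symm (FC Φ t)) : Real.Angle) = ℓ t := by
    intro t
    have h1 : ((Complex.arg ((homC Φ).symm (FC Φ t)) : ℝ) : Real.Angle) = (t : Real.Angle) := by
      rw [FC_eq, Homeomorph.symm_apply_apply]
      exact Complex.arg_exp_mul_I t ▸ Real.Angle.coe_toIocMod t (-Real.pi)
    rw [h1]
    exact hg t
  refine ⟨fun x => g (Complex.arg ((homC Φ).symm x) : Real.Angle), ?_, ?_⟩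
  · rintro _ ⟨t, rfl⟩
    refine ContinuousAt.continuousWithinAt ?_
    have hne : (homC Φ).symm (FC Φ t) ≠ 0 := by
      rw [FC_eq, Homeomorph.symm_apply_apply]
      exact Complex.exp_ne_zero _
    have h1 : ContinuousAt (fun x : ℂ => (Complex.arg x : Real.Angle)) ((homC Φ).symm (FC Φ t)) :=
      Complex.continuousAt_arg_coe_angle hne
    exact hgc.continuousAt.comp (h1.comp (f := (homC Φ).symm) (homC Φ).symm.continuous.continuousAt)
  · rintro _ ⟨t, rfl⟩
    exact (congrArg Complex.exp (hval t)).trans (he t)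

variable {n : ℕ} {p : ZMod n → ℤ × ℤ} {S : Finset Tri} {δ : ℝ}

theorem range_PF_eq (hδ : 0 < δ) (hp : IsPolygon p) (hS : Encloses p S) :
    range (PF p δ) = frontier (POLY.DC δ S) := by
  have hn : n ≠ 0 := by have := hp.1; omega
  rw [range_PF hn, POLY.frontier_DC hδ hp hS]

/-- **A point off the closed region**: `x - z` has a continuous logarithm on the polygon. -/
theorem logOn_polygon (hδ : 0 < δ) (hp : IsPolygon p) (hS : Encloses p S) {z : ℂ}
    (hz : z ∉ toC '' region δ S) : LogOn (range (PF p δ)) (fun x => x - z) := by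
  have hcl : IsClosed (range (PF p δ)) := by
    rw [range_PF_eq hδ hp hS]; exact isClosed_frontier
  have hsub : range (PF p δ) ⊆ toC '' region δ S := by
    rw [range_PF_eq hδ hp hS, ← POLY.closure_DC hδ]
    exact frontier_subset_closure
  have hcomp := POLY.isCompact_region hδ S
  obtain ⟨R, hR⟩ := hcomp.isBounded.subset_ball 0
  set q : ℂ := ((|R| + 1 : ℝ) : ℂ) with hq
  have hqn : ‖q‖ = |R| + 1 := by
    rw [hq, Complex.norm_real, Real.norm_of_nonneg (by positivity)]
  have hqb : q ∉ Metric.ball (0 : ℂ) R := by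
    rw [mem_ball_zero_iff, hqn, not_lt]
    linarith [le_abs_self R]
  have hqr : q ∉ toC '' region δ S := fun h => hqb (hR h)
  have h1 : LogOn (range (PF p δ)) (fun x => (x - z) / (x - q)) :=
    P153.TOP.logOn_of_preconnected hcl (isPreconnected_compl_region hδ hp hS)
      (compl_subset_compl.2 hsub) hz hqr
  have h2 : LogOn (Metric.ball (0 : ℂ) R) (fun x => x - q) :=
    P153.TOP.hasLogOn_of_convex (convex_ball 0 R) _ (continuousOn_id.sub continuousOn_const)
      fun x hx h0 => hqb (by rw [← sub_eq_zero.1 h0]; exact hx)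
  refine (h1.mul (h2.mono (hsub.trans hR))).congr fun x hx => ?_
  rw [div_mul_cancel₀]
  intro h0
  exact hqb (by rw [← sub_eq_zero.1 h0]; exact hR (hsub hx))

/-- **Points which are not close to the Jordan curve are enclosed.** -/
theorem mem_region_of_close (hδ : 0 < δ) (hp : IsPolygon p) (hS : Encloses p S) {σ : ℝ → ℝ}
    (hσ : Continuous σ) (hσp : ∀ x, σ (x + n) = σ x + 2 * Real.pi) {ε : ℝ}
    (hd : ∀ x, dist (PF p δ x) (FC Φ (σ x)) ≤ ε) {z : ℂ} (hz : z ∈ DC Φ)
    (hzd : ∀ t, ε < dist z (FC Φ t)) : z ∈ toC '' region δ S := by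
  by_contra hcon
  obtain ⟨F, hF, hFe⟩ := logOn_polygon hδ hp hS hcon
  have hJ := jcurve_FC Φ
  have hne : ∀ t, FC Φ t - z ≠ 0 := by
    intro t h0
    have h1 := hzd t
    have h2 := hd 0
    rw [← sub_eq_zero.1 h0, dist_self] at h1
    linarith [dist_nonneg (x := PF p δ 0) (y := FC Φ (σ 0))]
  have hnear : ∀ x, ‖(PF p δ x - z) / (FC Φ (σ x) - z) - 1‖ < 1 := by
    intro x
    have h0 := hne (σ x)
    have e : (PF p δ x - z) / (FC Φ (σ x) - z) - 1 =
        (PF p δ x - FC Φ (σ x)) / (FC Φ (σ x) - z) := by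
      field_simp
      ring
    rw [e, norm_div, div_lt_one (norm_pos_iff.2 h0)]
    have h1 := hzd (σ x)
    have h2 := hd x
    rw [dist_comm, dist_eq_norm] at h1
    rw [dist_eq_norm] at h2
    linarith
  have hslit : ∀ x, (PF p δ x - z) / (FC Φ (σ x) - z) ∈ Complex.slitPlane := fun x => by
    have := Complex.mem_slitPlane_of_norm_lt_one (hnear x)
    simpa using this
  set ℓ : ℝ → ℂ := fun x => F (PF p δ x) - Complex.log ((PF p δ x - z) / (FC Φ (σ x) - z)) with hℓ
  have hℓc : Continuous ℓ := by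
    refine Continuous.sub ?_ (Continuous.clog ?_ hslit)
    · exact hF.comp_continuous continuous_PF fun x => mem_range_self x
    · exact (continuous_PF.sub continuous_const).div ((hJ.cont.comp hσ).sub continuous_const)
        fun x => hne _
  have hℓe : ∀ x, Complex.exp (ℓ x) = FC Φ (σ x) - z := by
    intro x
    have h0 := hne (σ x)
    have h1 : PF p δ x - z ≠ 0 := by
      have h2 := Complex.slitPlane_ne_zero (hslit x)
      intro h3
      rw [h3, zero_div] at h2
      exact h2 rfl
    rw [hℓ]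
    simp only
    rw [Complex.exp_sub, hFe _ (mem_range_self x), Complex.exp_log (Complex.slitPlane_ne_zero (hslit x))]
    field_simp
  have hFCper : ∀ t, FC Φ (t + 2 * Real.pi) = FC Φ t := hJ.per
  have hℓp : ∀ x, ℓ (x + n) = ℓ x := by
    intro x
    simp only [hℓ]
    rw [PF_per, hσp, hFCper]
  obtain ⟨G, hG, hGe⟩ := P153.TOP.hasLogOn_of_convex (convex_univ (𝕜 := ℝ) (E := ℝ))
    (fun t => FC Φ t - z) ((hJ.cont.sub continuous_const).continuousOn) fun t _ => hne t
  have hGc : Continuous G := continuousOn_univ.1 hG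
  have h1 := P153.TOP.log_diff_const (A := (univ : Set ℝ)) isPreconnected_univ
    (F := fun x => G (σ x)) (G := ℓ) (hGc.comp hσ).continuousOn hℓc.continuousOn
    (fun x _ => by rw [hGe _ (mem_univ _), hℓe]) (mem_univ (0 + n : ℝ)) (mem_univ 0)
  rw [hℓp 0, hσp 0] at h1
  have h2 : G (σ 0 + 2 * Real.pi) = G (σ 0) := sub_left_injective h1
  have hGp : Function.Periodic G (2 * Real.pi) := by
    intro t
    have h3 := P153.TOP.log_diff_const (A := (univ : Set ℝ)) isPreconnected_univ
      (F := fun x => G (x + 2 * Real.pi)) (G := G)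
      (hGc.comp (continuous_id.add continuous_const)).continuousOn hGc.continuousOn
      (fun x _ => by
        rw [hGe _ (mem_univ _), hGe _ (mem_univ _)]
        show FC Φ (x + 2 * Real.pi) - z = FC Φ x - z
        rw [hFCper]) (mem_univ t)
      (mem_univ (σ 0))
    rw [h2, sub_self] at h3
    exact sub_eq_zero.1 h3
  exact not_logOn Φ hz (logOn_of_periodic Φ hGc hGp fun t => hGe t (mem_univ t))

end Vale.Agent.P153.R2.APPX
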